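import Crest.Agent.R55.Bern
import Crest.Prelude.Def_RandomGraph

set_option autoImplicit false
open Finset

namespace Crest.Agent.R55

open Crest.CombinatoricsR.RandomGraph Crest.FinProb

/-- permutations of the vertices act on the edge slots -/
scoped instance edgeAct (n : ℕ) : MulAction (Equiv.Perm (Fin n)) (EdgeSlot n) where
  smul σ z := ⟨z.1.map σ, fun h => z.2 ((Sym2.isDiag_map σ.injective).1 h)⟩
  one_smul z := Subtype.ext (by
    show z.1.map (1 : Equiv.Perm (Fin n)) = z.1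
    simp [Equiv.Perm.coe_one])
  mul_smul σ τ z := Subtype.ext (by
    show z.1.map (σ * τ : Equiv.Perm (Fin n)) = (z.1.map τ).map σ
    simp [Sym2.map_map, Equiv.Perm.coe_mul])

lemma smul_val {n : ℕ} (σ : Equiv.Perm (Fin n)) (z : EdgeSlot n) : (σ • z).1 = z.1.map σ := rfl

open Classical in
/-- the edge slots of the copy of `H` placed by `f` -/
noncomputable def Hs {n : ℕ} {W : Type} (f : W ↪ Fin n) (H : SimpleGraph W) :
    Finset (EdgeSlot n) :=
  univ.filter fun z => ∃ e ∈ H.edgeSet, e.map f = z.1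

lemma mem_Hs {n : ℕ} {W : Type} {f : W ↪ Fin n} {H : SimpleGraph W} {z : EdgeSlot n} :
    z ∈ Hs f H ↔ ∃ e ∈ H.edgeSet, e.map f = z.1 := by
  simp [Hs]

/-- coins versus random sets -/
lemma sum_bool_eq_Ex {ι : Type*} [Fintype ι] [DecidableEq ι] (p : ℝ) (F : (ι → Bool) → ℝ) :
    ∑ ω : ι → Bool, bernoulliWeight p ω * F ω =
      Ex (fun _ : ι => p) (fun w => F (fun z => decide (z ∈ w))) := by
  symm
  refine Fintype.sum_bijective (fun (w : Finset ι) z => decide (z ∈ w)) ⟨fun w w' h => ?_,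
    fun ω => ⟨univ.filter fun z => ω z = true, by ext z; simp⟩⟩ _ _ fun w => ?_
  · ext z
    simpa using congrFun h z
  · congr 1
    simp only [wt, bernoulliWeight, decide_eq_true_eq, prod_ite, filter_mem_eq_inter, univ_inter]
    congr 2
    ext z
    simp

lemma card_Hs {n : ℕ} {W : Type} [Fintype W] [DecidableEq W] (f : W ↪ Fin n) (H : SimpleGraph W)
    [DecidableRel H.Adj] : (Hs f H).card = H.edgeFinset.card := by
  symm
  refine card_bij (fun e he => ⟨e.map f, fun h => H.not_isDiag_of_mem_edgeSet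
    (SimpleGraph.mem_edgeFinset.1 he) ((Sym2.isDiag_map f.injective).1 h)⟩)
    (fun e he => mem_Hs.2 ⟨e, SimpleGraph.mem_edgeFinset.1 he, rfl⟩)
    (fun e _ e' _ h => Sym2.map.injective f.injective (congrArg Subtype.val h)) fun z hz => ?_
  obtain ⟨e, he, h⟩ := mem_Hs.1 hz
  exact ⟨e, SimpleGraph.mem_edgeFinset.2 he, Subtype.ext h⟩

lemma GraphAX.prob_eq {n : ℕ} (p : ℝ) (E : Set (SimpleGraph (Fin n))) :
    gnpProb n p E =
      Ex (fun _ : EdgeSlot n => p) fun w => ind (graphOf (fun z => decide (z ∈ w)) ∈ E) := by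
  rw [← sum_bool_eq_Ex p fun ω => ind (graphOf ω ∈ E), gnpProb, bernoulliProb, sum_filter]
  refine sum_congr rfl fun ω _ => ?_
  by_cases h : graphOf ω ∈ E <;> simp [ind, h]

lemma Ex_le_gnpProb {n : ℕ} {W : Type} (f : W ↪ Fin n) (H : SimpleGraph W) {p : ℝ}
    (hp0 : 0 ≤ p) (hp1 : p ≤ 1) :
    Ex (fun _ : EdgeSlot n => p) (fun w => ind (∃ σ : Equiv.Perm (Fin n),
      (Hs f H).image (fun z => σ • z) ⊆ w)) ≤ gnpProb n p {G | H.IsContained G} := by
  rw [GraphAX.prob_eq]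
  refine Ex_mono (fun _ => hp0) (fun _ => hp1) fun w => ind_mono ?_
  rintro ⟨σ, hσ⟩
  refine ⟨⟨⟨fun a => σ (f a), fun {a b} hab => ?_⟩, σ.injective.comp f.injective⟩⟩
  have h1 : f a ≠ f b := f.injective.ne hab.ne
  have h2 := hσ (mem_image_of_mem _ (mem_Hs.2 ⟨s(a, b), hab, rfl⟩ :
    (⟨s(f a, f b), by simpa using h1⟩ : EdgeSlot n) ∈ Hs f H))
  refine (SimpleGraph.fromEdgeSet_adj _).2 ⟨⟨by simpa using hab.ne, ?_⟩, σ.injective.ne h1⟩
  exact decide_eq_true h2

lemma gnpProb_one {n : ℕ} {W : Type} (f : W ↪ Fin n) (H : SimpleGraph W) :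
    gnpProb n 1 {G | H.IsContained G} = 1 := by
  refine le_antisymm ?_ (le_trans ?_ (Ex_le_gnpProb f H zero_le_one le_rfl))
  · rw [GraphAX.prob_eq]
    exact (Ex_mono (fun _ => zero_le_one) (fun _ => le_rfl) fun _ => ind_le_one _).trans
      (Ex_const _ 1).le
  · rw [Ex, sum_eq_single univ (fun w _ hw => ?_) fun h => absurd (mem_univ _) h,
      ind_true ⟨1, subset_univ _⟩]
    · simp [wt]
    · obtain ⟨z, hz⟩ : wᶜ.Nonempty := nonempty_iff_ne_empty.2 fun h => hw (by simpa using h)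
      rw [wt, prod_eq_zero hz (sub_self _), mul_zero, zero_mul]

end Crest.Agent.R55
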