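import Crest.Agent.R55.GraphA

set_option autoImplicit false
open Finset

namespace Crest.Agent.R55

open Crest.CombinatoricsR.RandomGraph Crest.FinProb

namespace GraphBX

lemma weight_nonneg {ι : Type*} [Fintype ι] {p : ℝ} (h0 : 0 ≤ p) (h1 : p ≤ 1) (ω : ι → Bool) :
    0 ≤ bernoulliWeight p ω := by
  unfold bernoulliWeight
  refine prod_nonneg fun i _ => ?_
  split_ifs <;> linarith

lemma sum_w_prod {ι : Type*} [Fintype ι] [DecidableEq ι] (p : ℝ) (g : ι → Bool → ℝ) :
    ∑ ω : ι → Bool, bernoulliWeight p ω * ∏ i, g i (ω i) =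
      ∏ i, (p * g i true + (1 - p) * g i false) := by
  unfold bernoulliWeight
  simp_rw [← Finset.prod_mul_distrib]
  rw [← Fintype.piFinset_univ,
    ← Finset.prod_univ_sum (fun _ => univ) (fun i b => (if b then p else 1 - p) * g i b)]
  simp

lemma sum_w_sub {ι : Type*} [Fintype ι] [DecidableEq ι] (p : ℝ) (U : Finset ι) :
    ∑ ω : ι → Bool, bernoulliWeight p ω * ind (∀ z ∈ U, ω z = true) = p ^ U.card := by
  have h1 : ∀ ω : ι → Bool, ind (∀ z ∈ U, ω z = true) =
      ∏ i, (fun i (b : Bool) => if i ∈ U then (if b then (1 : ℝ) else 0) else 1) i (ω i) := by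
    intro ω
    by_cases h : ∀ z ∈ U, ω z = true
    · rw [ind_true h]
      symm
      refine prod_eq_one fun i _ => ?_
      by_cases hi : i ∈ U
      · simp [hi, h i hi]
      · simp [hi]
    · rw [ind_false h]
      push Not at h
      obtain ⟨z, hz, hω⟩ := h
      symm
      refine prod_eq_zero (mem_univ z) ?_
      simp [hz, hω]
  simp_rw [h1]
  rw [sum_w_prod p (fun i (b : Bool) => if i ∈ U then (if b then (1 : ℝ) else 0) else 1)]
  have : ∀ i, (p * (if i ∈ U then (if true then (1 : ℝ) else 0) else 1) +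
      (1 - p) * (if i ∈ U then (if false then (1 : ℝ) else 0) else 1)) =
      if i ∈ U then p else 1 := by
    intro i
    by_cases hi : i ∈ U <;> simp [hi]
  refine (prod_congr rfl fun i _ => this i).trans ?_
  rw [prod_ite_mem, univ_inter, prod_const]

variable {n : ℕ} {W : Type}

/-- the subgraph spanned by the slots in `J` -/
def sub (f : W ↪ Fin n) (H : SimpleGraph W) (J : Finset (EdgeSlot n)) : H.Subgraph where
  verts := {a | ∃ b, H.Adj a b ∧ ∃ z ∈ J, z.1 = s(f a, f b)}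
  Adj a b := H.Adj a b ∧ ∃ z ∈ J, z.1 = s(f a, f b)
  adj_sub h := h.1
  edge_vert h := ⟨_, h⟩
  symm := ⟨fun a b h => ⟨h.1.symm, by
    obtain ⟨z, hz, h2⟩ := h.2
    exact ⟨z, hz, by rw [h2, Sym2.eq_swap]⟩⟩⟩

open Classical in
/-- the slots of a subgraph -/
noncomputable def sl {G : SimpleGraph (Fin n)} (G' : G.Subgraph) : Finset (EdgeSlot n) :=
  univ.filter fun z => z.1 ∈ G'.edgeSet

lemma mem_sl {G : SimpleGraph (Fin n)} {G' : G.Subgraph} {z : EdgeSlot n} :
    z ∈ sl G' ↔ z.1 ∈ G'.edgeSet := by simp [sl]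

lemma sl_eq [Finite W] (f : W ↪ Fin n) (H : SimpleGraph W) (J : Finset (EdgeSlot n)) (hJ : J ⊆ Hs f H)
    {G : SimpleGraph (Fin n)} (G' : G.Subgraph) (φ : (sub f H J).coe ≃g G'.coe) :
    ∃ σ : Equiv.Perm (Fin n), J.image (fun z => σ • z) = sl G' := by
  obtain ⟨σ, hσ⟩ := Equiv.Perm.exists_extending_pair
    (f := fun a : (sub f H J).verts => f a.1) (g := fun a : (sub f H J).verts => (φ a).1)
    (f.injective.comp Subtype.val_injective) (Subtype.val_injective.comp φ.injective)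
  refine ⟨σ, ?_⟩
  ext z
  rw [mem_image, mem_sl]
  constructor
  · rintro ⟨z', hz', rfl⟩
    obtain ⟨e, he, hez⟩ := mem_Hs.1 (hJ hz')
    induction e using Sym2.ind with
    | _ a b =>
      have hab : (sub f H J).Adj a b := ⟨he, z', hz', by rw [← hez]; rfl⟩
      have h2 : G'.coe.Adj (φ ⟨a, hab.fst_mem⟩) (φ ⟨b, hab.snd_mem⟩) :=
        φ.map_adj_iff.2 (by simpa using hab)
      rw [smul_val, ← hez]
      have ha := hσ ⟨a, hab.fst_mem⟩
      have hb := hσ ⟨b, hab.snd_mem⟩
      simp only at ha hb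
      simp only [Sym2.map_mk, ha, hb]
      simpa using h2
  · intro hz
    obtain ⟨z, hd⟩ := z
    induction z using Sym2.ind with
    | _ u v =>
      have huv : G'.Adj u v := by simpa using hz
      have h2 : (sub f H J).coe.Adj (φ.symm ⟨u, huv.fst_mem⟩) (φ.symm ⟨v, huv.snd_mem⟩) :=
        φ.symm.map_adj_iff.2 (by simpa using huv)
      obtain ⟨-, z', hz', h3⟩ := h2
      refine ⟨z', hz', Subtype.ext ?_⟩
      rw [smul_val, h3]
      have ha := hσ (φ.symm ⟨u, huv.fst_mem⟩)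
      have hb := hσ (φ.symm ⟨v, huv.snd_mem⟩)
      simp only [RelIso.apply_symm_apply] at ha hb
      simp only [Sym2.map_mk, ha, hb]

lemma verts_eq (f : W ↪ Fin n) (H : SimpleGraph W) (J : Finset (EdgeSlot n))
    {G : SimpleGraph (Fin n)} (G' : G.Subgraph) (φ : (sub f H J).coe ≃g G'.coe) :
    G'.verts = {u | ∃ v, G'.Adj u v} := by
  ext u
  constructor
  · intro hu
    obtain ⟨b, hb⟩ := (φ.symm ⟨u, hu⟩).2
    have hab : (sub f H J).Adj (φ.symm ⟨u, hu⟩).1 b := hb
    have h2 : G'.coe.Adj (φ (φ.symm ⟨u, hu⟩)) (φ ⟨b, hab.snd_mem⟩) :=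
      φ.map_adj_iff.2 (by simpa using hab)
    rw [RelIso.apply_symm_apply] at h2
    exact ⟨_, by simpa using h2⟩
  · rintro ⟨v, hv⟩
    exact hv.fst_mem

lemma adj_of_sl {G : SimpleGraph (Fin n)} {G₁ G₂ : G.Subgraph} (h : sl G₁ = sl G₂) {u v : Fin n}
    (huv : G₁.Adj u v) : G₂.Adj u v := by
  have hne : ¬ (s(u, v) : Sym2 (Fin n)).IsDiag := by simpa using huv.ne
  have h1 : (⟨s(u, v), hne⟩ : EdgeSlot n) ∈ sl G₁ := mem_sl.2 (by simpa using huv)
  rw [h, mem_sl] at h1
  simpa using h1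

lemma copyCount_le [Finite W] (f : W ↪ Fin n) (H : SimpleGraph W) (J : Finset (EdgeSlot n))
    (hJ : J ⊆ Hs f H) (ω : EdgeSlot n → Bool) :
    ((graphOf ω).copyCount (sub f H J).coe : ℝ) ≤
      ∑ U ∈ (univ : Finset (Equiv.Perm (Fin n))).image (fun σ => J.image (fun z => σ • z)),
        ind (∀ z ∈ U, ω z = true) := by
  classical
  simp_rw [ind_eq_ite]
  rw [sum_boole, SimpleGraph.copyCount, Nat.cast_le]
  refine card_le_card_of_injOn sl ?_ ?_
  · intro G' hG'
    obtain ⟨φ⟩ := (mem_filter.1 (mem_coe.1 hG')).2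
    obtain ⟨σ, hσ⟩ := sl_eq f H J hJ G' φ
    refine mem_coe.2 (mem_filter.2 ⟨mem_image.2 ⟨σ, mem_univ _, hσ⟩, fun z hz => ?_⟩)
    have h1 := G'.edgeSet_subset (mem_sl.1 hz)
    rw [graphOf, SimpleGraph.edgeSet_fromEdgeSet] at h1
    obtain ⟨_, h2⟩ := h1.1
    exact h2
  · intro G₁ h₁ G₂ h₂ h
    obtain ⟨φ₁⟩ := (mem_filter.1 (mem_coe.1 h₁)).2
    obtain ⟨φ₂⟩ := (mem_filter.1 (mem_coe.1 h₂)).2
    have hadj : G₁.Adj = G₂.Adj := by
      ext u v
      exact ⟨adj_of_sl h, adj_of_sl h.symm⟩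
    refine SimpleGraph.Subgraph.ext ?_ hadj
    rw [verts_eq f H J G₁ φ₁, verts_eq f H J G₂ φ₂, hadj]

open Classical in
lemma orb_stab {G X : Type*} [Group G] [MulAction G X] [Fintype G] [DecidableEq X]
    (J : Finset X) :
    ((univ : Finset G).image (fun σ => J.image (fun z => σ • z))).card *
      ((univ : Finset G).filter fun τ => ∀ e ∈ J, τ • e ∈ J).card ≤ Fintype.card G := by
  rw [← card_univ, card_eq_sum_card_image (fun σ : G => J.image (fun z => σ • z)) univ,
    ← smul_eq_mul, ← sum_const]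
  refine sum_le_sum fun U hU => ?_
  obtain ⟨σ, -, rfl⟩ := mem_image.1 hU
  refine card_le_card_of_injOn (fun τ => σ * τ) ?_ (fun a _ b _ h => mul_left_cancel h)
  intro τ hτ
  have hτ' := (mem_filter.1 (mem_coe.1 hτ)).2
  refine mem_coe.2 (mem_filter.2 ⟨mem_univ _, ?_⟩)
  have h1 : J.image (fun z => τ • z) = J := by
    refine eq_of_subset_of_card_le (fun x hx => ?_) ?_
    · obtain ⟨e, he, rfl⟩ := mem_image.1 hx
      exact hτ' e he
    · rw [card_image_of_injective _ (MulAction.injective τ)]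
  conv_rhs => rw [← h1, image_image]
  refine image_congr fun z _ => ?_
  simp [mul_smul]

end GraphBX

open Classical in
/-- the expected number of copies of the subgraph spanned by `J` is at most (orbit size) `p^|J|`,
written with the stabiliser -/
lemma stab_le {n : ℕ} {W : Type} [Fintype W] [DecidableEq W] (f : W ↪ Fin n) (H : SimpleGraph W)
    {p : ℝ} (hp0 : 0 ≤ p) (hp1 : p ≤ 1)
    (hE : ∀ F : H.Subgraph, (1 : ℝ) / 2 ≤ gnpExpect n p (fun G => (G.copyCount F.coe : ℝ)))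
    (J : Finset (EdgeSlot n)) (hJ : J ⊆ Hs f H) :
    (((univ : Finset (Equiv.Perm (Fin n))).filter fun τ => ∀ e ∈ J, τ • e ∈ J).card : ℝ) ≤
      Fintype.card (Equiv.Perm (Fin n)) * (2 * p ^ J.card) := by
  set O := (univ : Finset (Equiv.Perm (Fin n))).image (fun σ => J.image (fun z => σ • z)) with hO
  have h1 : gnpExpect n p (fun G => (G.copyCount (GraphBX.sub f H J).coe : ℝ)) ≤
      O.card * p ^ J.card := by
    unfold gnpExpect
    calc _ ≤ ∑ ω : EdgeSlot n → Bool, bernoulliWeight p ω *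
            ∑ U ∈ O, ind (∀ z ∈ U, ω z = true) :=
          sum_le_sum fun ω _ => mul_le_mul_of_nonneg_left (GraphBX.copyCount_le f H J hJ ω)
            (GraphBX.weight_nonneg hp0 hp1 ω)
      _ = ∑ U ∈ O, p ^ U.card := by
          simp_rw [mul_sum]
          rw [sum_comm]
          exact sum_congr rfl fun U _ => GraphBX.sum_w_sub p U
      _ = ∑ _U ∈ O, p ^ J.card := by
          refine sum_congr rfl fun U hU => ?_
          obtain ⟨σ, -, rfl⟩ := mem_image.1 hU
          rw [card_image_of_injective _ (MulAction.injective σ)]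
      _ = _ := by rw [sum_const, nsmul_eq_mul]
  have h2 := (hE (GraphBX.sub f H J)).trans h1
  have h3 : (O.card : ℝ) * (((univ : Finset (Equiv.Perm (Fin n))).filter
      fun τ => ∀ e ∈ J, τ • e ∈ J).card : ℝ) ≤ Fintype.card (Equiv.Perm (Fin n)) := by
    have := GraphBX.orb_stab (G := Equiv.Perm (Fin n)) J
    rw [hO]
    exact_mod_cast (by convert this)
  have h4 : (0 : ℝ) ≤ p ^ J.card := by positivity
  have h5 : (0 : ℝ) ≤ (((univ : Finset (Equiv.Perm (Fin n))).filter
      fun τ => ∀ e ∈ J, τ • e ∈ J).card : ℝ) := by positivity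
  nlinarith [mul_le_mul_of_nonneg_right h2 h5, mul_le_mul_of_nonneg_right h3 h4]

end Crest.Agent.R55
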