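import Crest.Agent.R55.Res
import Crest.Agent.R55.HLem

set_option autoImplicit false
open Finset

namespace Crest.Agent.R55

variable {X Ω : Type*} [Fintype X] [DecidableEq X] [Fintype Ω]

namespace SpreadX

lemma pt {r b s f : ℝ} (hr : 0 ≤ r) (hb : 0 ≤ b) (hs : 0 ≤ s) (h : r ^ 2 ≤ b * s) :
    r * f ≤ b * Real.exp f + s - 2 * r := by
  obtain ⟨h1, h2⟩ := log_ratio hr hb hs h
  set α := Real.log (r / b)
  have e1 := Real.add_one_le_exp (f - α)
  have e2 := Real.add_one_le_exp α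
  have e3 : Real.exp (f - α) = Real.exp (-α) * Real.exp f := by
    rw [← Real.exp_add]; congr 1; ring
  have e4 := mul_le_mul_of_nonneg_right h1 (Real.exp_pos f).le
  have e5 := mul_le_mul_of_nonneg_left e1 hr
  have e6 := mul_le_mul_of_nonneg_left e2 hr
  rw [e3] at e5
  nlinarith

lemma exb {a κ0 : ℝ} (ha0 : 0 < a) (ha1 : a ≤ 1) (hκ0 : 0 ≤ κ0) (haκ : 6 * κ0 ≤ a)
    (ψ : Finset X → ℝ) (hψ : ∀ U, 0 ≤ ψ U) (hsp : ∀ U, ψ U ≤ κ0 ^ U.card) (T : Finset X) :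
    Ex (fun _ : X => a) (fun w => ip (fun _ : X => a) T * ψ (T \ w) *
      Real.exp (((T \ w).card : ℝ) - 1 / 2 * T.card)) ≤ 1 := by
  have hp : Pr (fun _ : X => a) := fun _ => ⟨ha0, ha1⟩
  have h1 := lemH hp T ψ hψ (fun _ => 1) (fun _ => 1) (fun _ => zero_le_one) fun _ _ _ => rfl
  rw [Ex_const, mul_one] at h1
  have h2 : ∑ U ∈ T.powerset, (∏ _x ∈ U, Real.exp 1 / a) * ψ U ≤ Real.exp (1 / 2 * T.card) := by
    have he : Real.exp 1 ≤ 3 := (Real.exp_one_lt_d9.trans (by norm_num)).le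
    have h3 : Real.exp 1 / a * κ0 ≤ 1 / 2 := by
      rw [div_mul_eq_mul_div, div_le_iff₀ ha0]
      nlinarith
    calc ∑ U ∈ T.powerset, (∏ _x ∈ U, Real.exp 1 / a) * ψ U
        ≤ ∑ U ∈ T.powerset, ∏ _x ∈ U, (Real.exp 1 / a * κ0) := by
          refine sum_le_sum fun U _ => ?_
          rw [prod_mul_distrib, prod_const κ0]
          exact mul_le_mul_of_nonneg_left (hsp U) (prod_nonneg fun _ _ => by positivity)
      _ = ∏ _x ∈ T, (1 + Real.exp 1 / a * κ0) := (prod_one_add T).symm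
      _ ≤ ∏ _x ∈ T, Real.exp (1 / 2) := by
          refine prod_le_prod (fun _ _ => by positivity) fun _ _ => ?_
          have := Real.add_one_le_exp (1 / 2 : ℝ)
          linarith
      _ = Real.exp (1 / 2 * T.card) := by
          rw [prod_const, ← Real.exp_nat_mul, mul_comm]
  have e : (fun w => ip (fun _ : X => a) T * ψ (T \ w) *
      Real.exp (((T \ w).card : ℝ) - 1 / 2 * T.card)) = fun w =>
      (ip (fun _ : X => a) T * ψ (T \ w) * Real.exp (∑ _x ∈ T \ w, (1 : ℝ)) * 1) *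
        (Real.exp (1 / 2 * T.card))⁻¹ := by
    funext w
    rw [Real.exp_sub, sum_const, nsmul_eq_mul, mul_one, mul_one, div_eq_mul_inv, ← mul_assoc]
  rw [e, Ex_mul_const, ← div_eq_mul_inv, div_le_one (Real.exp_pos _)]
  exact h1.trans h2

end SpreadX

/-- one round of the spread lemma -/
lemma spread_round {a κ0 : ℝ} (ha0 : 0 < a) (ha1 : a ≤ 1) (hκ0 : 0 ≤ κ0) (haκ : 6 * κ0 ≤ a)
    (κ : Ω → ℝ) (hκ : ∀ σ, 0 ≤ κ σ) (hκ1 : ∑ σ, κ σ = 1) (t : Ω → Finset X)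
    (hsp : ∀ U, psi univ κ t U ≤ κ0 ^ U.card) :
    Ex (fun _ : X => a) (fun w =>
      ∑ σ, κ σ * rr (fun _ : X => a) univ κ t (t σ) w * ((t σ \ w).card : ℝ)) ≤
      1 / 2 * ∑ σ, κ σ * ((t σ).card : ℝ) := by
  have hp : Pr (fun _ : X => a) := fun _ => ⟨ha0, ha1⟩
  have hκ' : ∀ τ ∈ (univ : Finset Ω), 0 ≤ κ τ := fun τ _ => hκ τ
  have key : ∀ w : Finset X,
      ∑ σ, κ σ * rr (fun _ : X => a) univ κ t (t σ) w * ((t σ \ w).card : ℝ) ≤
      (∑ σ, κ σ * (ip (fun _ : X => a) (t σ) * psi univ κ t (t σ \ w) *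
        Real.exp (((t σ \ w).card : ℝ) - 1 / 2 * (t σ).card)) + gb (fun _ : X => a) univ κ t w
        - 2) + ∑ σ, (1 / 2 * (κ σ * ((t σ).card : ℝ))) * rr (fun _ : X => a) univ κ t (t σ) w := by
    intro w
    have h1 := sum_rr (t := t) hp hκ' w
    rw [hκ1] at h1
    have h2 : (2 : ℝ) = ∑ σ, 2 * (κ σ * rr (fun _ : X => a) univ κ t (t σ) w) := by
      rw [← mul_sum, h1, mul_one]
    rw [← sum_r2 w, ← sum_add_distrib]
    conv_rhs => enter [1, 2]; rw [h2]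
    rw [← sum_sub_distrib, ← sum_add_distrib]
    refine sum_le_sum fun σ _ => ?_
    have h3 := SpreadX.pt (f := ((t σ \ w).card : ℝ) - 1 / 2 * (t σ).card)
      (rr_nonneg (t := t) hp hκ' (t σ) w)
      (mul_nonneg (ip_pos hp (t σ)).le (psi_nonneg (t := t) hκ' (t σ \ w)))
      (r2_nonneg (t := t) hp hκ' (t σ) w) (rr_sq_le hp hκ' (t σ) w)
    have h4 := mul_le_mul_of_nonneg_left h3 (hκ σ)
    linarith
  refine (Ex_mono (fun _ => ha0.le) (fun _ => ha1) key).trans ?_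
  rw [Ex_add, Ex_sub, Ex_add, Ex_const, Ex_sum, Ex_sum]
  have h1 : ∑ σ, Ex (fun _ : X => a) (fun w => κ σ * (ip (fun _ : X => a) (t σ) *
      psi univ κ t (t σ \ w) * Real.exp (((t σ \ w).card : ℝ) - 1 / 2 * (t σ).card))) ≤ 1 := by
    refine le_of_le_of_eq (sum_le_sum fun σ _ => ?_) hκ1
    rw [Ex_const_mul]
    exact mul_le_of_le_one_right (hκ σ)
      (SpreadX.exb ha0 ha1 hκ0 haκ _ (fun U => psi_nonneg hκ' U) hsp (t σ))
  have h2 := Ex_gb (t := t) hp hκ'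
  have h3 : ∑ σ, Ex (fun _ : X => a) (fun w => (1 / 2 * (κ σ * ((t σ).card : ℝ))) *
      rr (fun _ : X => a) univ κ t (t σ) w) ≤ 1 / 2 * ∑ σ, κ σ * ((t σ).card : ℝ) := by
    rw [mul_sum]
    refine sum_le_sum fun σ _ => ?_
    rw [Ex_const_mul]
    exact mul_le_of_le_one_right (by have := hκ σ; positivity) (Ex_rr hp hκ' (t σ))
  linarith

/-- the spread lemma -/
theorem spread_lemma {κ0 : ℝ} (hκ0 : 0 < κ0) (r : ℕ) {p : ℝ} (hp : r * (6 * κ0) ≤ p)
    (hp1 : p < 1) (κ : Ω → ℝ) (hκ : ∀ σ, 0 ≤ κ σ) (hκ1 : ∑ σ, κ σ = 1) (t : Ω → Finset X)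
    (hsp : ∀ U, psi univ κ t U ≤ κ0 ^ U.card) :
    1 - (1 / 2) ^ r * ∑ σ, κ σ * ((t σ).card : ℝ) ≤
      Ex (fun _ : X => p) (fun w => ind (∃ σ, t σ ⊆ w)) := by
  induction r generalizing p κ t with
  | zero =>
    rw [Nat.cast_zero, zero_mul] at hp
    rw [pow_zero, one_mul]
    by_cases h : ∃ σ, t σ = ∅
    · obtain ⟨σ, hσ⟩ := h
      have e : (fun w : Finset X => ind (∃ σ, t σ ⊆ w)) = fun _ => 1 :=
        funext fun w => ind_true ⟨σ, hσ ▸ empty_subset w⟩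
      rw [e, Ex_const]
      have : 0 ≤ ∑ σ, κ σ * ((t σ).card : ℝ) :=
        sum_nonneg fun σ _ => mul_nonneg (hκ σ) (Nat.cast_nonneg _)
      linarith
    · have h1 : ∑ σ, κ σ ≤ ∑ σ, κ σ * ((t σ).card : ℝ) := by
        refine sum_le_sum fun σ _ => le_mul_of_one_le_right (hκ σ) ?_
        have : 0 < (t σ).card := card_pos.2 (nonempty_iff_ne_empty.2 fun hh => h ⟨σ, hh⟩)
        exact_mod_cast this
      have h2 : 0 ≤ Ex (fun _ : X => p) (fun w => ind (∃ σ, t σ ⊆ w)) :=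
        Ex_nonneg (fun _ => hp) (fun _ => hp1.le) fun _ => ind_nonneg _
      linarith
  | succ r ih =>
    set a := 6 * κ0 with ha
    have ha0 : 0 < a := by positivity
    have hr : 0 ≤ (r : ℝ) * a := by positivity
    push_cast at hp
    have hap : a ≤ p := by linarith
    have ha1 : a < 1 := hap.trans_lt hp1
    have h1a : 0 < 1 - a := by linarith
    set b := (p - a) / (1 - a) with hb
    have hab : p = a + (1 - a) * b := by rw [hb]; field_simp; ring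
    have hb1 : b < 1 := by rw [hb, div_lt_one h1a]; linarith
    have hrb : (r : ℝ) * a ≤ b := by
      rw [hb, le_div_iff₀ h1a]
      nlinarith
    have hb0 : 0 ≤ b := hr.trans hrb
    have hPr : Pr (fun _ : X => a) := fun _ => ⟨ha0, ha1.le⟩
    have hκ' : ∀ τ ∈ (univ : Finset Ω), 0 ≤ κ τ := fun τ _ => hκ τ
    have key : ∀ w : Finset X, 1 - (1 / 2) ^ r *
        ∑ σ, κ σ * rr (fun _ : X => a) univ κ t (t σ) w * ((t σ \ w).card : ℝ) ≤
        Ex (fun _ : X => b) (fun w' => ind (∃ σ, t σ ⊆ w ∪ w')) := by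
      intro w
      have h1 := ih hrb hb1 (fun σ => κ σ * rr (fun _ : X => a) univ κ t (t σ) w)
        (fun σ => mul_nonneg (hκ σ) (rr_nonneg hPr hκ' _ _))
        ((sum_rr hPr hκ' w).trans hκ1) (fun σ => t σ \ w)
        fun U => (psi_rr hPr hκ' w U).trans (hsp U)
      refine h1.trans (Ex_mono (fun _ => hb0) (fun _ => hb1.le) fun w' => ind_mono ?_)
      rintro ⟨σ, hσ⟩
      exact ⟨σ, sdiff_le_iff.1 hσ⟩
    have h2 := Ex_mono (p := fun _ : X => a) (fun _ => ha0.le) (fun _ => ha1.le) key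
    have h3 := spread_round ha0 ha1.le hκ0.le le_rfl κ hκ hκ1 t hsp
    rw [Ex_sub, Ex_const, Ex_const_mul] at h2
    have h4 := mul_le_mul_of_nonneg_left h3 (by positivity : (0 : ℝ) ≤ (1 / 2) ^ r)
    rw [hab, Ex_union, pow_succ]
    linarith

end Crest.Agent.R55
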